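import Vale.Agent.P099.Main

/-! The billiard flow in every irrational triangle is ergodic and weakly mixing. -/

namespace Vale.Agent.Results.P099.WeakMixing

open MeasureTheory Vale.Agent.P099

theorem result (P : Fin 3 → ℂ) (hP : AffineIndependent ℝ P) (hirr : ¬IsRational P) :
    IsProbabilityMeasure (liouville P) ∧
    (∀ᵐ z ∂liouville P, ∃! γ, IsOrbit P γ ∧ γ 0 = z) ∧
    (∀ t, AEMeasurable (flow P t) (liouville P) ∧ (liouville P).map (flow P t) = liouville P) ∧
    IsErgodicFlow (flow P) (liouville P) ∧
    IsErgodicFlow (fun t => Prod.map (flow P t) (flow P t)) ((liouville P).prod (liouville P)) :=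
  main hP hirr

end Vale.Agent.Results.P099.WeakMixing
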